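import Mathlib

/-!
# Gram matrices of integer column families
-/

namespace Vale.Agent.P160R

open Matrix

variable {l κ κ' : Type} [Fintype l] [DecidableEq l] [Fintype κ] [DecidableEq κ] [Fintype κ']
  [DecidableEq κ']

/-- An integer matrix as a real one. -/
noncomputable def toR (Z : Matrix l κ ℤ) : Matrix l κ ℝ := Z.map (Int.cast : ℤ → ℝ)

/-- An integer matrix as a rational one. -/
def toQ (Z : Matrix l κ ℤ) : Matrix l κ ℚ := Z.map (Int.cast : ℤ → ℚ)

omit [DecidableEq l] [DecidableEq κ'] in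
/-- Independence over `ℚ` gives independence over `ℝ`. -/
lemma toR_mulVec_injective (Z : Matrix l κ ℤ) (h : Function.Injective (toQ Z).mulVec) :
    Function.Injective (toR Z).mulVec := by
  have hq : ((toQ Z)ᵀ * toQ Z).det ≠ 0 := by
    intro h0
    obtain ⟨q, hq0, hq⟩ := Matrix.exists_mulVec_eq_zero_iff.2 h0
    refine hq0 (h ?_)
    rw [mulVec_zero]
    refine dotProduct_self_eq_zero.1 ?_
    have h1 := congrArg (fun x => q ⬝ᵥ x) hq
    rwa [← mulVec_mulVec, dotProduct_mulVec, vecMul_transpose, dotProduct_zero] at h1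
  have hz : (Zᵀ * Z).det ≠ 0 := by
    intro h0
    refine hq ?_
    have e : (toQ Z)ᵀ * toQ Z = (Zᵀ * Z).map (Int.castRingHom ℚ) := by
      rw [Matrix.map_mul]; rfl
    rw [e, ← RingHom.mapMatrix_apply, ← RingHom.map_det, h0, map_zero]
  have hr : ((toR Z)ᵀ * toR Z).det ≠ 0 := by
    have e : (toR Z)ᵀ * toR Z = (Zᵀ * Z).map (Int.castRingHom ℝ) := by
      rw [Matrix.map_mul]; rfl
    rw [e, ← RingHom.mapMatrix_apply, ← RingHom.map_det]
    simpa using hz
  intro x y hxy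
  by_contra hne
  refine hr (Matrix.exists_mulVec_eq_zero_iff.1 ⟨x - y, sub_ne_zero.2 hne, ?_⟩)
  rw [← mulVec_mulVec, mulVec_sub, sub_eq_zero.2 hxy, mulVec_zero]

omit [Fintype l] [DecidableEq l] [Fintype κ] [DecidableEq κ] [Fintype κ'] [DecidableEq κ'] in
lemma toR_fromCols (Z : Matrix l κ ℤ) (Y : Matrix l κ' ℤ) :
    toR (fromCols Z Y) = fromCols (toR Z) (toR Y) := by
  ext i (_ | _) <;> rfl

omit [Fintype l] [DecidableEq l] [Fintype κ] [DecidableEq κ] [Fintype κ'] [DecidableEq κ'] in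
lemma toQ_fromCols (Z : Matrix l κ ℤ) (Y : Matrix l κ' ℤ) :
    toQ (fromCols Z Y) = fromCols (toQ Z) (toQ Y) := by
  ext i (_ | _) <;> rfl

omit [DecidableEq l] [Fintype κ] [DecidableEq κ] [Fintype κ'] [DecidableEq κ'] in
/-- Gram matrix of two families placed side by side. -/
lemma gram_fromCols (G : Matrix l l ℝ) (hG : G.IsHermitian) (X : Matrix l κ ℝ)
    (Y : Matrix l κ' ℝ) :
    (fromCols X Y)ᵀ * G * fromCols X Y =
      fromBlocks (Xᵀ * G * X) (Xᵀ * G * Y) (Xᵀ * G * Y)ᴴ (Yᵀ * G * Y) := by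
  rw [transpose_fromCols, fromRows_mul, fromRows_mul_fromCols]
  congr 1
  have hs : Gᵀ = G := by simpa using hG.eq
  simp [transpose_mul, hs, Matrix.mul_assoc]

omit [DecidableEq κ'] in
/-- The Schur complement is below the quadratic form, uniformly in the first coordinates. -/
lemma schur_le (A : Matrix κ κ ℝ) (Bm : Matrix κ κ' ℝ) (Dm : Matrix κ' κ' ℝ) (hA : A.PosDef)
    (q : κ → ℝ) (a : κ' → ℝ) :
    a ⬝ᵥ (Dm - Bmᴴ * A⁻¹ * Bm) *ᵥ a
      ≤ Sum.elim q a ⬝ᵥ fromBlocks A Bm Bmᴴ Dm *ᵥ Sum.elim q a := by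
  let _ : Invertible A := hA.isUnit.invertible
  have h1 := schur_complement_eq₁₁ Bm Dm q a hA.1
  simp only [star_trivial] at h1
  rw [dotProduct_mulVec, dotProduct_mulVec, h1]
  refine le_add_of_nonneg_left ?_
  rw [← dotProduct_mulVec]
  simpa using hA.posSemidef.dotProduct_mulVec_nonneg (q + (A⁻¹ * Bm) *ᵥ a)

omit [DecidableEq κ'] in
/-- The Schur complement of a positive definite block matrix is positive definite. -/
lemma schur_posDef (A : Matrix κ κ ℝ) (Bm : Matrix κ κ' ℝ) (Dm : Matrix κ' κ' ℝ) (hA : A.PosDef)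
    (hfull : (fromBlocks A Bm Bmᴴ Dm).PosDef) : (Dm - Bmᴴ * A⁻¹ * Bm).PosDef := by
  let _ : Invertible A := hA.isUnit.invertible
  refine PosDef.of_dotProduct_mulVec_pos ((IsHermitian.fromBlocks₁₁ Bm Dm hA.1).1 hfull.1)
    fun a ha => ?_
  have h1 := schur_complement_eq₁₁ Bm Dm (-((A⁻¹ * Bm) *ᵥ a)) a hA.1
  rw [neg_add_cancel, dotProduct_zero, zero_add] at h1
  rw [dotProduct_mulVec, ← h1, ← dotProduct_mulVec]
  exact hfull.dotProduct_mulVec_pos fun h => ha (funext fun t => congrFun h (Sum.inr t))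

omit [DecidableEq l] in
/-- Determinant of a Gram matrix of two families, through the Schur complement of the first. -/
lemma det_gram_fromCols (G : Matrix l l ℝ) (hG : G.IsHermitian) (X : Matrix l κ ℝ)
    (Y : Matrix l κ' ℝ) (hA : (Xᵀ * G * X).PosDef) :
    ((fromCols X Y)ᵀ * G * fromCols X Y).det = (Xᵀ * G * X).det *
      (Yᵀ * G * Y - (Xᵀ * G * Y)ᴴ * (Xᵀ * G * X)⁻¹ * (Xᵀ * G * Y)).det := by
  let _ : Invertible (Xᵀ * G * X) := hA.isUnit.invertible
  rw [gram_fromCols G hG, det_fromBlocks₁₁, invOf_eq_nonsing_inv]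

end Vale.Agent.P160R
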